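import Vale.Agent.P224.PU.KSub
import Vale.Agent.P224.PU.U141.Rows
import Vale.Agent.P224.PU.U141.El
import Vale.Agent.P224.PU.U141.DG0
import Vale.Agent.P224.PU.U141.DG1
import Vale.Agent.P224.PU.U141.DG2
import Vale.Agent.P224.PU.U141.DG3
import Vale.Agent.P224.PU.U141.DG4
import Vale.Agent.P224.PU.U141.DG5
import Vale.Agent.P224.PU.U141.DG6
import Vale.Agent.P224.PU.U141.DG7

/-!
The identity of the certificate and the pointwise inequality of the Gaussian law for `C = 141/100`.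
-/

namespace Vale.Agent.P224.PU.U141

open Vale.Agent.P224.UE Vale.Agent.P224.POS Vale.Agent.P224.PU Vale.Agent.P224.UG
open scoped RealInnerProductSpace

noncomputable section

/-- the blocks with their factors -/
def BK : List (Nat × Nat × Blk) := [
  (0, 0, ⟨els0, G0⟩),
  (0, 0, ⟨els1, G1⟩),
  (0, 0, ⟨els2, G2⟩),
  (0, 0, ⟨els3, G3⟩),
  (3, 0, ⟨els4, G4⟩),
  (3, 0, ⟨els5, G5⟩),
  (3, 0, ⟨els6, G6⟩),
  (3, 0, ⟨els7, G7⟩)]

/-- the integers replacing `k, P₊, P₋, g` -/
def Ms : List Nat := [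
  Nat.add (Nat.pow 2 51) 1512494762171524075,
  Nat.add (Nat.pow 2 582) 345514434852124553,
  Nat.add (Nat.pow 2 4006) 471902012194973817,
  Nat.add (Nat.pow 2 24551) 1954659930409380599]

set_option maxRecDepth 100000 in
/-- **The identity**, checked by the kernel. -/
theorem idU : chk Ms (PE.sub (lhsK rows) (PE.mul (PE.c 2) (rhsK BK))) = true := by
  decide +kernel

set_option maxRecDepth 100000 in
lemma tri0 : tri G0 0 = true := by decide +kernel

set_option maxRecDepth 100000 in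
lemma tri1 : tri G1 0 = true := by decide +kernel

set_option maxRecDepth 100000 in
lemma tri2 : tri G2 0 = true := by decide +kernel

set_option maxRecDepth 100000 in
lemma tri3 : tri G3 0 = true := by decide +kernel

set_option maxRecDepth 100000 in
lemma tri4 : tri G4 0 = true := by decide +kernel

set_option maxRecDepth 100000 in
lemma tri5 : tri G5 0 = true := by decide +kernel

set_option maxRecDepth 100000 in
lemma tri6 : tri G6 0 = true := by decide +kernel

set_option maxRecDepth 100000 in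
lemma tri7 : tri G7 0 = true := by decide +kernel

lemma hBK : ∀ b ∈ BK, tri b.2.2.G 0 = true ∧ QPos b.2.2.G := by
  intro b hb
  unfold BK at hb
  rcases List.mem_cons.1 hb with rfl | hb
  · exact ⟨tri0, fun x => qpos_of_chk psd0 x⟩
  rcases List.mem_cons.1 hb with rfl | hb
  · exact ⟨tri1, fun x => qpos_of_chk psd1 x⟩
  rcases List.mem_cons.1 hb with rfl | hb
  · exact ⟨tri2, fun x => qpos_of_chk psd2 x⟩
  rcases List.mem_cons.1 hb with rfl | hb
  · exact ⟨tri3, fun x => qpos_of_chk psd3 x⟩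
  rcases List.mem_cons.1 hb with rfl | hb
  · exact ⟨tri4, fun x => qpos_of_chk psd4 x⟩
  rcases List.mem_cons.1 hb with rfl | hb
  · exact ⟨tri5, fun x => qpos_of_chk psd5 x⟩
  rcases List.mem_cons.1 hb with rfl | hb
  · exact ⟨tri6, fun x => qpos_of_chk psd6 x⟩
  rcases List.mem_cons.1 hb with rfl | hb
  · exact ⟨tri7, fun x => qpos_of_chk psd7 x⟩
  · exact absurd hb List.not_mem_nil

/-- **The pointwise inequality of the Gaussian law.** -/
theorem hpos {T : ℝ} (hT0 : 0 < T) (hT1 : T < 1) {E : Type*} [NormedAddCommGroup E]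
    [InnerProductSpace ℝ E] {N w e : E} (he : ‖e‖ ^ 2 ≤ 25 / 36) (hN : ‖N‖ = 1) (hw : ‖w‖ = 1)
    (P Q Z Xi : ℝ) :
    Dsum (certK D rows) T ![P, Q, ⟪N, w⟫, ⟪N, e⟫, ⟪w, e⟫, Z, Xi, ⟪e, e⟫]
      + Dsum (certK D rows) T (sw8 T ![P, Q, ⟪N, w⟫, ⟪N, e⟫, ⟪w, e⟫, Z, Xi, ⟪e, e⟫]) ≤ 0 :=
  hpos_of_chkK D_pos (k := 2) (by norm_num) idU hBK hT0 hT1 he hN hw P Q Z Xi

end

end Vale.Agent.P224.PU.U141
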