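import Vale.Agent.P224.PU.ValK
import Vale.Agent.P224.PU.U141.Id

/-!
The volume bound `141 / 100 * |S ^ m|` in every dimension.
-/

namespace Vale.Agent.P224.PU.U141

open MeasureTheory Set Filter Function Module Vale.Agent.P224 Vale.Agent.P224.UE
open Vale.Agent.P224.UG Vale.Agent.P224.POS
open scoped Topology RealInnerProductSpace ENNReal ContDiff Manifold

noncomputable section

theorem okK_rows : okK rows = true := by decide +kernel

lemma ls (a : ℤ) (l : List ℤ) : lsum (a :: l) = a + lsum l := rfl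

lemma ls0 : lsum [] = 0 := rfl

/-- the value at level zero -/
theorem V0_eq (u r : ℝ) : V0 (certK D rows) u r
    = 1 - 1161581 / 2097152 * u - 1311 / 4096 * r + 123085 / 524288 * u ^ 2 := by
  unfold rows
  simp only [V0_cons, V0_nil, ls, ls0, GTerm.v0, v3, D]
  push_cast
  ring

/-- the value at level one -/
theorem V1_eq (u r : ℝ) : V1 (certK D rows) u r
    = 141 / 100 - 1276833 / 2097152 * u - 3697 / 8192 * r := by
  unfold rows
  simp only [V1_cons, V1_nil, List.headD_cons, GTerm.v1, v3, D]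
  push_cast
  ring

/-- the numeric law -/
theorem hnum {Θ u r : ℝ} (h1 : 6 / 5 ≤ Θ) (h2 : Θ < 141 / 100) (h3 : 0 ≤ u)
    (h4 : Θ ^ 2 * u ≤ 1) (h5 : u ^ 2 ≤ r) (h6 : r ≤ u) :
    Θ * V0 (certK D rows) u r < V1 (certK D rows) u r := by
  rw [V0_eq, V1_eq]
  have hB : 1 ≤ Θ ^ 2 * (5033 / 10000 + 915 / 1000 * (141 / 100 - Θ)) := by
    nlinarith [mul_nonneg (sub_nonneg.2 h1) (sub_nonneg.2 h2.le),
      mul_nonneg (mul_nonneg (sub_nonneg.2 h1) (sub_nonneg.2 h2.le)) (by linarith : 0 ≤ Θ)]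
  have hu : u ≤ 5033 / 10000 + 915 / 1000 * (141 / 100 - Θ) := by
    by_contra hcon
    rw [not_le] at hcon
    have hΘ : 0 < Θ ^ 2 := by positivity
    have := mul_lt_mul_of_pos_left hcon hΘ
    linarith
  obtain ⟨t, ht⟩ : ∃ t, t = 141 / 100 - Θ := ⟨_, rfl⟩
  have hΘ : Θ = 141 / 100 - t := by linarith
  subst hΘ
  have ht0 : 0 < t := by linarith
  have ht1 : t ≤ 21 / 100 := by linarith
  have hu1 : u ≤ 7 / 10 := by linarith
  rcases le_total (3697 / 8192) ((141 / 100 - t) * (1311 / 4096)) with hc | hc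
  · nlinarith [mul_nonneg (sub_nonneg.2 hc) (sub_nonneg.2 h5), mul_nonneg h3 (sub_nonneg.2 hu),
      mul_nonneg ht0.le h3, mul_nonneg ht0.le (sub_nonneg.2 hu1), mul_nonneg ht0.le (sq_nonneg u)]
  · nlinarith [mul_nonneg (sub_nonneg.2 hc) (sub_nonneg.2 h6), mul_nonneg h3 (sub_nonneg.2 hu),
      mul_nonneg ht0.le h3, mul_nonneg ht0.le (sub_nonneg.2 hu1), mul_nonneg ht0.le (sq_nonneg u)]

end

section

variable {V W M : Type*} [NormedAddCommGroup V] [InnerProductSpace ℝ V] [FiniteDimensional ℝ V]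
  [NormedAddCommGroup W] [InnerProductSpace ℝ W] [FiniteDimensional ℝ W]
  [TopologicalSpace M] [ChartedSpace V M]
  [MeasurableSpace V] [BorelSpace V] [MeasurableSpace M] [BorelSpace M]
  [IsManifold 𝓘(ℝ, V) ∞ M] [CompactSpace M] [T2Space M] [ConnectedSpace M]
  [MeasurableSpace W] [BorelSpace W]

/-- **The universal bound.** In every dimension `m ≥ 2` a closed connected minimal hypersurface of
the sphere, immersed and not contained in a great sphere, has at least `1.41` times the volume of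
the great sphere. -/
theorem mainU (hm : 2 ≤ finrank ℝ V) (hW : finrank ℝ W = finrank ℝ V + 2)
    {F : M → W} (hF : SphImm V F) (hmin : ∀ x n, IsUnitNormal V F x n → meanCurv V F x n = 0)
    (hng : ¬ ∃ a : W, a ≠ 0 ∧ ∀ x, ⟪F x, a⟫ = 0) :
    ENNReal.ofReal (141 / 100 * sphereVol (finrank ℝ V)) ≤ volM V F univ :=
  main_of_certK hm hW hF hmin hng (by norm_num) okK_rows
    (fun _ he _ hT _ _ hN hw P Q Z Ξ => hpos hT.1 hT.2 he hN hw P Q Z Ξ)
    fun _ _ _ h1 h2 h3 h4 h5 h6 => hnum h1 h2 h3 h4 h5 h6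

end

end Vale.Agent.P224.PU.U141
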